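import Vale.Agent.P181.R2.H188.W2
import Vale.Agent.P181.TS.H187.Ord3

/-!
# P181, FD: complementary minors and the orbit determinant
-/

set_option autoImplicit false

namespace Vale.Agent.P181.FD.H187

open Finset Vale.Agent.P181.H188W Vale.Agent.P181.TS.H187

/-- **Jacobi**, block form -/
theorem jac_blocks {m l : Type*} [Fintype m] [DecidableEq m] [Fintype l] [DecidableEq l]
    (P Q : Matrix (m ⊕ l) (m ⊕ l) ℂ) (h : P * Q = 1) :
    P.det * (Q.toBlocks₂₂).det = (P.toBlocks₁₁).det := by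
  have h1 : P * Matrix.fromBlocks 1 Q.toBlocks₁₂ 0 Q.toBlocks₂₂ =
      Matrix.fromBlocks P.toBlocks₁₁ 0 P.toBlocks₂₁ 1 := by
    have h2 : P = Matrix.fromBlocks P.toBlocks₁₁ P.toBlocks₁₂ P.toBlocks₂₁ P.toBlocks₂₂ :=
      (Matrix.fromBlocks_toBlocks P).symm
    have h3 : Q = Matrix.fromBlocks Q.toBlocks₁₁ Q.toBlocks₁₂ Q.toBlocks₂₁ Q.toBlocks₂₂ :=
      (Matrix.fromBlocks_toBlocks Q).symm
    rw [h2, h3, Matrix.fromBlocks_multiply, ← Matrix.fromBlocks_one, Matrix.fromBlocks_inj] at h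
    obtain ⟨-, h12, -, h22⟩ := h
    conv_lhs => rw [h2]
    rw [Matrix.fromBlocks_multiply, h12, h22]
    simp
  have h4 := congrArg Matrix.det h1
  rw [Matrix.det_mul, Matrix.det_fromBlocks_zero₂₁, Matrix.det_fromBlocks_zero₁₂, Matrix.det_one,
    one_mul, Matrix.det_one, mul_one] at h4
  exact h4

/-- the first `b - l` coordinates, then the last `l` ones backwards -/
noncomputable def ev {b l : ℕ} (hl : l ≤ b) : Fin (b - l) ⊕ Fin l ≃ Fin b :=
  Equiv.ofBijective
    (Sum.elim (fun s => (⟨s, by omega⟩ : Fin b)) (fun s => (⟨b - 1 - s, by omega⟩ : Fin b))) (by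
    rw [Fintype.bijective_iff_injective_and_card]
    constructor
    · rintro (x | x) (y | y) h
      · have h0 := Fin.ext_iff.1 h
        have h1 : (x : ℕ) = y := h0
        rw [Fin.ext h1]
      · exfalso
        have h1 : (x : ℕ) = b - 1 - y := congrArg Fin.val h
        have := x.2
        have := y.2
        omega
      · exfalso
        have h1 : b - 1 - (x : ℕ) = y := congrArg Fin.val h
        have := x.2
        have := y.2
        omega
      · have h1 : b - 1 - (x : ℕ) = b - 1 - y := congrArg Fin.val h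
        have := x.2
        have := y.2
        have h2 : (x : ℕ) = y := by omega
        rw [Fin.ext h2]
    · rw [Fintype.card_sum, Fintype.card_fin, Fintype.card_fin, Fintype.card_fin]
      omega)

lemma ev_inl {b l : ℕ} (hl : l ≤ b) (s : Fin (b - l)) :
    ev hl (Sum.inl s) = ⟨s, by omega⟩ := rfl

lemma ev_inr {b l : ℕ} (hl : l ≤ b) (s : Fin l) :
    ev hl (Sum.inr s) = ⟨b - 1 - s, by omega⟩ := rfl

/-- complementary minors (rows of `P`: letters; columns: coordinates) -/
theorem jac {b l : ℕ} (hl : l ≤ b) (P : Matrix (Fin b) (Fin b) ℂ) (hP : P.det ≠ 0)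
    (w : Fin (b - l) ⊕ Fin l ≃ Fin b) :
    ((Equiv.Perm.sign ((ev hl).symm.trans w) : ℤ) : ℂ) * P.det *
      (Matrix.of fun r s : Fin l => P⁻¹ (ev hl (Sum.inr s)) (w (Sum.inr r))).det =
      (Matrix.of fun r s : Fin (b - l) => P (w (Sum.inl r)) (ev hl (Sum.inl s))).det := by
  have h1 : P.submatrix w (ev hl) * P⁻¹.submatrix (ev hl) w = 1 := by
    rw [Matrix.submatrix_mul_equiv, Matrix.mul_nonsing_inv _ (isUnit_iff_ne_zero.2 hP),
      Matrix.submatrix_one_equiv]
  have h2 := jac_blocks _ _ h1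
  have h3 : (P.submatrix w (ev hl)).det =
      ((Equiv.Perm.sign ((ev hl).symm.trans w) : ℤ) : ℂ) * P.det := by
    rw [← Matrix.det_permute, ← Matrix.det_submatrix_equiv_self (ev hl)]
    congr 1
    ext x y
    simp
  have h4 : (Matrix.of fun r s : Fin l => P⁻¹ (ev hl (Sum.inr s)) (w (Sum.inr r))).det =
      (P⁻¹.submatrix (ev hl) w).toBlocks₂₂.det := by
    rw [← Matrix.det_transpose]
    rfl
  rw [h4, ← h3, h2]
  rfl

/-- the dual point -/
noncomputable def dq {b : ℕ} (P : Matrix (Fin b) (Fin b) ℂ) (n : ℕ) (u : Fin b) (i : Fin n) : ℂ :=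
  if h : (i : ℕ) < b then P⁻¹ ⟨b - 1 - i, by omega⟩ u else 0

lemma dt_dq {b n l : ℕ} (P : Matrix (Fin b) (Fin b) ℂ) (hn : l ≤ n) (hl : l ≤ b)
    (e : Fin l → Fin b) :
    dt hn e (dq P n) = (Matrix.of fun r s : Fin l => P⁻¹ (ev hl (Sum.inr s)) (e r)).det := by
  rw [dt]
  congr 1
  ext r s
  rw [Matrix.of_apply, Matrix.of_apply, dq]
  have h : ((Fin.castLE hn s : Fin n) : ℕ) < b := lt_of_lt_of_le s.2 hl
  rw [dif_pos h]
  rfl

/-- extension to an invertible matrix -/
lemma exists_inv {b R l : ℕ} (x : Fin b → ℕ → ℂ) (hR : R ≤ b) (e : Fin l → Fin b) (hl : R = l)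
    (h : (Matrix.of fun r s : Fin l => x (e r) s).det ≠ 0) :
    ∃ P : Matrix (Fin b) (Fin b) ℂ, P.det ≠ 0 ∧ ∀ u (i : Fin b), (i : ℕ) < R → P u i = x u i := by
  subst hl
  have h1 : LinearIndependent ℂ (fun (s : Fin R) (u : Fin b) => x u s) := by
    rw [Fintype.linearIndependent_iff]
    intro c hc
    have h2 : (Matrix.of fun r s : Fin R => x (e r) s).mulVec c = 0 := by
      ext r
      have h3 := congrFun hc (e r)
      rw [Finset.sum_apply] at h3
      rw [Matrix.mulVec, dotProduct]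
      refine Eq.trans (sum_congr rfl fun s _ => ?_) h3
      rw [Pi.smul_apply, smul_eq_mul, mul_comm, Matrix.of_apply]
    have h3 := Matrix.eq_zero_of_mulVec_eq_zero h h2
    intro i
    rw [h3]
    rfl
  obtain ⟨w, hw, hwv⟩ := ext_li _ h1 b hR le_rfl
  refine ⟨Matrix.of fun u i => w i u, ?_, ?_⟩
  · intro h0
    obtain ⟨z, hz0, hz⟩ := Matrix.exists_mulVec_eq_zero_iff.2 h0
    apply hz0
    rw [Fintype.linearIndependent_iff] at hw
    have h2 : ∑ s, z s • w s = 0 := by
      ext a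
      have h3 := congrFun hz a
      rw [Matrix.mulVec, dotProduct] at h3
      rw [Finset.sum_apply]
      refine Eq.trans (sum_congr rfl fun s _ => ?_) h3
      rw [Pi.smul_apply, smul_eq_mul, mul_comm, Matrix.of_apply]
    ext s
    exact hw z h2 s
  · intro u i hi
    rw [Matrix.of_apply, hwv i hi]

/-- **the orbit determinant of the complementary columns** -/
theorem dual_det {b n N : ℕ} (len : Fin N → ℕ) (hn : ∀ c, len c ≤ n) (hb : ∀ c, len c ≤ b)
    (x : Fin b → ℕ → ℂ)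
    (w : Equiv.Perm (Fin b) → (c : Fin N) → Fin (b - len c) ⊕ Fin (len c) ≃ Fin b)
    (hdet : (Matrix.of fun τ σ : Equiv.Perm (Fin b) => ∏ c,
      (Matrix.of fun r s : Fin (b - len c) =>
        x (σ (τ.symm (w τ c (Sum.inl r)))) (s : ℕ)).det).det ≠ 0) :
    ∃ Q : Fin b → Fin n → ℂ, (Matrix.of fun τ σ : Equiv.Perm (Fin b) =>
      ∏ c, dt (hn c) (fun s => σ (τ.symm (w τ c (Sum.inr s)))) Q).det ≠ 0 := by
  classical
  -- the invertible matrix
  have hP : ∃ P : Matrix (Fin b) (Fin b) ℂ, P.det ≠ 0 ∧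
      ∀ c, ∀ u (i : Fin b), (i : ℕ) < b - len c → P u i = x u i := by
    rcases isEmpty_or_nonempty (Fin N) with hN | hN
    · exact ⟨1, by rw [Matrix.det_one]; exact one_ne_zero, fun c => hN.elim c⟩
    · obtain ⟨c0, hc0⟩ := Finite.exists_max fun c : Fin N => b - len c
      have h1 : ∃ σ : Equiv.Perm (Fin b), ∏ c, (Matrix.of fun r s : Fin (b - len c) =>
          x (σ ((1 : Equiv.Perm (Fin b)).symm (w 1 c (Sum.inl r)))) (s : ℕ)).det ≠ 0 := by
        by_contra hcon
        push Not at hcon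
        apply hdet
        apply Matrix.det_eq_zero_of_row_eq_zero 1
        intro σ
        rw [Matrix.of_apply]
        exact hcon σ
      obtain ⟨σ, hσ⟩ := h1
      obtain ⟨P, hP1, hP2⟩ := exists_inv (R := b - len c0) x (Nat.sub_le _ _) _ rfl
        (prod_ne_zero_iff.1 hσ c0 (mem_univ _))
      exact ⟨P, hP1, fun c u i hi => hP2 u i (lt_of_lt_of_le hi (hc0 c))⟩
  obtain ⟨P, hP, hPx⟩ := hP
  refine ⟨dq P n, ?_⟩
  -- the signs
  let sg : Equiv.Perm (Fin b) → ℂ := fun σ => ((Equiv.Perm.sign σ : ℤ) : ℂ)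
  have hsg : ∀ σ, sg σ * sg σ = 1 := by
    intro σ
    simp only [sg]
    rw [← Int.cast_mul, ← Units.val_mul, Int.units_mul_self]
    simp
  have hsg0 : ∀ σ, sg σ ≠ 0 := fun σ h => by
    have := hsg σ
    rw [h, mul_zero] at this
    exact zero_ne_one this
  have key : ∀ τ σ c, dt (hn c) (fun s => σ (τ.symm (w τ c (Sum.inr s)))) (dq P n) =
      (sg τ * sg ((ev (hb c)).symm.trans (w τ c)) * P.det⁻¹) * (sg σ *
        (Matrix.of fun r s : Fin (b - len c) =>
          x (σ (τ.symm (w τ c (Sum.inl r)))) (s : ℕ)).det) := by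
    intro τ σ c
    rw [dt_dq P (hn c) (hb c)]
    have h1 := jac (hb c) P hP (((w τ c).trans τ.symm).trans σ)
    have h2 : ((Equiv.Perm.sign ((ev (hb c)).symm.trans (((w τ c).trans τ.symm).trans σ)) : ℤ) :
        ℂ) = sg σ * sg τ * sg ((ev (hb c)).symm.trans (w τ c)) := by
      have h3 : (ev (hb c)).symm.trans (((w τ c).trans τ.symm).trans σ) =
          (σ * τ⁻¹) * ((ev (hb c)).symm.trans (w τ c)) := by
        ext p
        rfl
      rw [h3, Equiv.Perm.sign_mul, Equiv.Perm.sign_mul, Equiv.Perm.sign_inv]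
      simp only [sg]
      push_cast
      rfl
    have h4 : (Matrix.of fun r s : Fin (b - len c) =>
        P ((((w τ c).trans τ.symm).trans σ) (Sum.inl r)) (ev (hb c) (Sum.inl s))).det =
        (Matrix.of fun r s : Fin (b - len c) =>
          x (σ (τ.symm (w τ c (Sum.inl r)))) (s : ℕ)).det := by
      congr 1
      ext r s
      rw [Matrix.of_apply, Matrix.of_apply]
      exact hPx c _ _ s.2
    rw [h2, h4] at h1
    have h5 : (Matrix.of fun r s : Fin (len c) => P⁻¹ (ev (hb c) (Sum.inr s))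
        ((fun s => σ (τ.symm (w τ c (Sum.inr s)))) r)).det =
        (Matrix.of fun r s : Fin (len c) => P⁻¹ (ev (hb c) (Sum.inr s))
        ((((w τ c).trans τ.symm).trans σ) (Sum.inr r))).det := rfl
    rw [h5, ← h1]
    have h6 := hsg σ
    have h7 := hsg τ
    have h8 := hsg ((ev (hb c)).symm.trans (w τ c))
    have h9 : P.det⁻¹ * P.det = 1 := inv_mul_cancel₀ hP
    generalize (Matrix.of fun r s : Fin (len c) => P⁻¹ (ev (hb c) (Sum.inr s))
        ((((w τ c).trans τ.symm).trans σ) (Sum.inr r))).det = D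
    generalize sg σ = s1 at h6 ⊢
    generalize sg τ = s2 at h7 ⊢
    generalize sg ((ev (hb c)).symm.trans (w τ c)) = s3 at h8 ⊢
    calc D = (s1 * s1) * (s2 * s2) * (s3 * s3) * (P.det⁻¹ * P.det) * D := by
          rw [h6, h7, h8, h9]; ring
      _ = _ := by ring
  have hM : (Matrix.of fun τ σ : Equiv.Perm (Fin b) =>
      ∏ c, dt (hn c) (fun s => σ (τ.symm (w τ c (Sum.inr s)))) (dq P n)) =
      Matrix.of fun τ σ => (∏ c, (sg τ * sg ((ev (hb c)).symm.trans (w τ c)) * P.det⁻¹)) *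
        (Matrix.of fun τ σ : Equiv.Perm (Fin b) => (∏ _c : Fin N, sg σ) *
          (Matrix.of fun τ σ : Equiv.Perm (Fin b) => ∏ c,
            (Matrix.of fun r s : Fin (b - len c) =>
              x (σ (τ.symm (w τ c (Sum.inl r)))) (s : ℕ)).det) τ σ) τ σ := by
    ext τ σ
    simp only [Matrix.of_apply]
    rw [← prod_mul_distrib, ← prod_mul_distrib]
    exact prod_congr rfl fun c _ => key τ σ c
  rw [hM, Matrix.det_mul_column, Matrix.det_mul_row]
  refine mul_ne_zero (prod_ne_zero_iff.2 fun τ _ => prod_ne_zero_iff.2 fun c _ => ?_)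
    (mul_ne_zero (prod_ne_zero_iff.2 fun σ _ => prod_ne_zero_iff.2 fun c _ => hsg0 σ) hdet)
  exact mul_ne_zero (mul_ne_zero (hsg0 _) (hsg0 _)) (inv_ne_zero hP)

end Vale.Agent.P181.FD.H187
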