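import Vale.Agent.P181.TS.H91.Mat
import Vale.Agent.P181.TS.H187.Ord1
import Vale.Agent.P181.TS.H187.Ord2
import Vale.Agent.P181.FD.H187.Jac

/-!
# P181, FD: the orbit inequality for long columns from a design with codes
-/

set_option autoImplicit false

namespace Vale.Agent.P181.FD.H187

open Finset
open Vale.Agent.P181 Vale.Agent.P181.H280 Vale.Agent.P181.FR Vale.Agent.P181.H188W
open Vale.Agent.P181.T4 Vale.Agent.P181.H463 Vale.Agent.P181.H59 Vale.Agent.P181.H261
open Vale.Agent.P181.TS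

/-- the numbers -/
theorem nums (n k b N : ℕ) (len : Fin N → ℕ) (lam η : Fin n → ℕ) (hb : 0 < b)
    (hlen : ∀ c, len c ≤ n ∧ len c ≤ b)
    (hcol : ∀ i : Fin n, (univ.filter fun c => (i : ℕ) < len c).card + η i = lam i)
    (hsum : ∑ i, lam i = k * b) :
    ∃ d : Fin b → ℕ, (∀ p q, d p ≤ d q + 1) ∧ ∑ p, d p = ∑ i, η i ∧ (∀ p, d p ≤ k) ∧
      (∀ p, k - d p ≤ N) ∧ (∀ τ : Equiv.Perm (Fin b), ∀ p q,
        N - (k - d (τ.symm p)) ≤ N - (k - d (τ.symm q)) + 1) ∧
      ∀ τ : Equiv.Perm (Fin b), ∑ p, (N - (k - d (τ.symm p))) = ∑ c, (b - len c) := by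
  classical
  obtain ⟨d, hd, hds⟩ := Mat5.exists_balanced b (∑ i, η i) hb
  have hlenC : ∀ c, (univ.filter fun i : Fin n => (i : ℕ) < len c).card = len c := by
    intro c
    rw [Fin.card_filter_val_lt, min_eq_right (hlen c).1]
  have hlenb : ∀ c, len c ≤ b := fun c => (hlen c).2
  have hsum2 : ∑ c, len c + ∑ i, η i = k * b := by
    rw [← hsum]
    have h1 : ∑ i, lam i = ∑ i : Fin n, ((univ.filter fun c => (i : ℕ) < len c).card + η i) :=
      sum_congr rfl fun i _ => (hcol i).symm
    rw [h1, sum_add_distrib]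
    congr 1
    calc ∑ c, len c = ∑ c, (univ.filter fun i : Fin n => (i : ℕ) < len c).card :=
          sum_congr rfl fun c _ => (hlenC c).symm
      _ = ∑ i : Fin n, (univ.filter fun c => (i : ℕ) < len c).card := by
          simp only [card_filter]
          exact sum_comm
  have hda : ∀ p, d p ≤ k := by
    intro p
    by_contra h
    push Not at h
    have h1 : ∀ q, k ≤ d q := fun q => by have := hd p q; omega
    have h2 : ∑ q : Fin b, k < ∑ q, d q :=
      sum_lt_sum (fun q _ => h1 q) ⟨p, mem_univ p, h⟩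
    rw [sum_const, card_univ, Fintype.card_fin, smul_eq_mul, hds, mul_comm] at h2
    omega
  have hsum3 : ∑ p, (k - d p) = ∑ c, len c := by
    have h2 : ∑ p, (k - d p) + ∑ p, d p = k * b := by
      rw [← sum_add_distrib]
      have h3 : ∀ p : Fin b, k - d p + d p = k := fun p => Nat.sub_add_cancel (hda p)
      rw [sum_congr rfl fun p _ => h3 p, sum_const, card_univ, Fintype.card_fin, smul_eq_mul,
        mul_comm]
    omega
  have hadN : ∀ p, k - d p ≤ N := by
    intro p
    by_contra h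
    push Not at h
    have h1 : ∀ q, N ≤ k - d q := fun q => by
      have := hd q p
      have := hda q
      have := hda p
      omega
    have h2 : ∑ q : Fin b, N < ∑ q, (k - d q) :=
      sum_lt_sum (fun q _ => h1 q) ⟨p, mem_univ p, h⟩
    have h3 : ∑ c, len c ≤ ∑ _c : Fin N, b := sum_le_sum fun c _ => hlenb c
    rw [sum_const, card_univ, Fintype.card_fin, smul_eq_mul] at h2 h3
    rw [hsum3, mul_comm] at h2
    omega
  refine ⟨d, hd, hds, hda, hadN, ?_, ?_⟩
  · intro τ p q
    have h1 := hd (τ.symm p) (τ.symm q)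
    have h2 := hda (τ.symm p)
    have h3 := hda (τ.symm q)
    omega
  · intro τ
    have h1 : ∑ p, (N - (k - d (τ.symm p))) = ∑ p, (N - (k - d p)) :=
      Equiv.sum_comp τ.symm fun p => N - (k - d p)
    have h2 : ∑ p, (N - (k - d p)) + ∑ p, (k - d p) = N * b := by
      rw [← sum_add_distrib]
      have h3 : ∀ p : Fin b, N - (k - d p) + (k - d p) = N :=
        fun p => Nat.sub_add_cancel (hadN p)
      rw [sum_congr rfl fun p _ => h3 p, sum_const, card_univ, Fintype.card_fin, smul_eq_mul,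
        mul_comm]
    have h4 : ∑ c, (b - len c) + ∑ c, len c = N * b := by
      rw [← sum_add_distrib]
      have h3 : ∀ c : Fin N, b - len c + len c = b := fun c => Nat.sub_add_cancel (hlenb c)
      rw [sum_congr rfl fun c _ => h3 c, sum_const, card_univ, Fintype.card_fin, smul_eq_mul]
    rw [h1]
    omega

/-- the numbering of a set and of its complement -/
theorem exists_w {b m l : ℕ} (B : Finset (Fin b)) (hB : B.card = m) (hml : m + l = b) :
    ∃ w : Fin m ⊕ Fin l ≃ Fin b, (∀ s, w (Sum.inl s) ∈ B) ∧ ∀ s, w (Sum.inr s) ∉ B := by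
  have hBc : (Bᶜ : Finset (Fin b)).card = l := by
    rw [card_compl, Fintype.card_fin, hB]
    omega
  refine ⟨finSumEquivOfFinset hB hBc, ?_, ?_⟩
  · intro s
    rw [finSumEquivOfFinset_inl]
    exact orderEmbOfFin_mem _ _ s
  · intro s
    rw [finSumEquivOfFinset_inr]
    exact mem_compl.1 (orderEmbOfFin_mem _ _ s)

lemma image_inl {b m l : ℕ} (B : Finset (Fin b)) (w : Fin m ⊕ Fin l ≃ Fin b)
    (h1 : ∀ s, w (Sum.inl s) ∈ B) (h2 : ∀ s, w (Sum.inr s) ∉ B) :
    univ.image (fun s => w (Sum.inl s)) = B := by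
  classical
  ext p
  rw [mem_image]
  constructor
  · rintro ⟨s, -, rfl⟩
    exact h1 s
  · intro hp
    obtain ⟨x, hx⟩ := w.surjective p
    rcases x with x | x
    · exact ⟨x, mem_univ _, hx⟩
    · exact absurd (hx ▸ hp) (h2 x)

lemma card_inr {b m l : ℕ} (B : Finset (Fin b)) (w : Fin m ⊕ Fin l ≃ Fin b)
    (h1 : ∀ s, w (Sum.inl s) ∈ B) (h2 : ∀ s, w (Sum.inr s) ∉ B) (τ : Equiv.Perm (Fin b))
    (j : Fin b) :
    (univ.filter fun i => τ.symm (w (Sum.inr i)) = j).card = if τ j ∈ B then 0 else 1 := by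
  classical
  have hset : (univ.filter fun i => τ.symm (w (Sum.inr i)) = j) =
      univ.filter fun i => w (Sum.inr i) = τ j := by
    ext i
    simp only [mem_filter, mem_univ, true_and]
    rw [Equiv.symm_apply_eq]
  rw [hset]
  split_ifs with h
  · rw [card_eq_zero, filter_eq_empty_iff]
    intro i _ hi
    exact h2 i (hi ▸ h)
  · obtain ⟨x, hx⟩ := w.surjective (τ j)
    rcases x with x | x
    · exact absurd (hx ▸ h1 x) h
    · rw [card_eq_one]
      refine ⟨x, ?_⟩
      ext i
      simp only [mem_filter, mem_univ, true_and, mem_singleton]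
      constructor
      · intro hi
        exact Sum.inr_injective (w.injective (hi.trans hx.symm))
      · intro hi
        rw [hi]
        exact hx

/-- the determinant at a numerical point -/
theorem num_det {b r g N : ℕ} {m l : Fin N → ℕ} (cl : Fin b → Fin (g * r))
    (y : Fin b → Fin (g * r) → Bool) (hr : 0 < r) (hR : ∀ c, g * r ≤ m c)
    (B : Equiv.Perm (Fin b) → Fin N → Finset (Fin b))
    (w : Equiv.Perm (Fin b) → (c : Fin N) → Fin (m c) ⊕ Fin (l c) ≃ Fin b)
    (hwB : ∀ τ c, univ.image (fun s => w τ c (Sum.inl s)) = B τ c)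
    (hB3 : ∀ τ c, Reg r cl y (B τ c))
    (hB4 : ∀ τ, ∀ ρ : Equiv.Perm (Fin b), ρ ≠ 1 →
        (∑ c, (miss cl (B τ c)).card < ∑ c, (miss cl ((B τ c).image ρ)).card) ∨
        ((∑ c, (miss cl (B τ c)).card ≤ ∑ c, (miss cl ((B τ c).image ρ)).card) ∧
          ∃ c, Sing r cl y ((B τ c).image ρ))) :
    ∃ x : Fin b → ℕ → ℂ, (Matrix.of fun τ σ : Equiv.Perm (Fin b) => ∏ c,
      (Matrix.of fun r s : Fin (m c) =>
        x (σ (τ.symm (w τ c (Sum.inl r)))) (s : ℕ)).det).det ≠ 0 := by
  classical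
  have hu : ∀ τ c, Function.Injective (fun s => w τ c (Sum.inl s)) := fun τ c s s' h =>
    Sum.inl_injective ((w τ c).injective h)
  obtain ⟨G, hG⟩ := TS.H187.ord3 b r g cl y (Equiv.Perm (Fin b) × Fin N)
    (fun x => m x.2) (fun x s => w x.1 x.2 (Sum.inl s)) hr (fun x => hR x.2)
    (fun x => hu x.1 x.2) (fun x => by rw [hwB]; exact hB3 x.1 x.2)
  have hdet := TS.H91.key TS.H187.ord1 TS.H187.ord2 cl y G hr hR B
    (fun τ c s => w τ c (Sum.inl s)) hu hwB (fun τ c => by
      have := hG (τ, c)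
      simp only [hwB] at this
      exact this) hB4
  obtain ⟨t, ht⟩ := TS.H91.exists_eval hdet
  refine ⟨fun v i => (pt r cl y G (i + 1) v (Fin.last i)).eval t, ?_⟩
  have e : (Matrix.of fun τ σ : Equiv.Perm (Fin b) => ∏ c,
      (Matrix.of fun r' s : Fin (m c) =>
        (fun (v : Fin b) (i : ℕ) => (pt r cl y G (i + 1) v (Fin.last i)).eval t)
          (σ (τ.symm (w τ c (Sum.inl r')))) (s : ℕ)).det) =
      (Polynomial.evalRingHom t).mapMatrix (Matrix.of fun τ σ : Equiv.Perm (Fin b) =>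
        ∏ c, mn r cl y G (m c) (fun s => (σ * τ⁻¹) (w τ c (Sum.inl s)))) := by
    ext τ σ
    rw [Matrix.of_apply, RingHom.mapMatrix_apply, Matrix.map_apply, Matrix.of_apply,
      map_prod]
    refine prod_congr rfl fun c _ => ?_
    rw [mn, RingHom.map_det]
    congr 1
  rw [e, ← RingHom.map_det]
  exact ht

/-- **[FD2]**, general number of rows -/
theorem dualT (n k b N : ℕ) (len : Fin N → ℕ) (lam η : Fin n → ℕ) (hb : 0 < b)
    (hD : TDes b N (fun c => b - len c)) (hlen : ∀ c, len c ≤ n ∧ len c ≤ b) (hη : Antitone η)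
    (hcol : ∀ i : Fin n, (univ.filter fun c => (i : ℕ) < len c).card + η i = lam i)
    (hsum : ∑ i, lam i = k * b) :
    gt n b η ≤ ((∑ i, η i) + b - 1).choose (b - 1) * (b.factorial * plethMult b k n lam) := by
  classical
  obtain ⟨r, g, cl, y, hr, hR, hst⟩ := hD
  obtain ⟨d, hd, hds, hda, hadN, hgd1, hgd2⟩ := nums n k b N len lam η hb hlen hcol hsum
  have hex := fun τ : Equiv.Perm (Fin b) =>
    hst (fun p => N - (k - d (τ.symm p))) (hgd1 τ) (hgd2 τ)
  choose B hB1 hB2 hB3 hB4 using hex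
  have hw := fun τ c => exists_w (l := len c) (B τ c) (hB1 τ c)
    (Nat.sub_add_cancel (hlen c).2)
  choose w hwl hwr using hw
  obtain ⟨x, hx⟩ := num_det cl y hr hR B w (fun τ c => image_inl _ _ (hwl τ c) (hwr τ c)) hB3 hB4
  obtain ⟨Q, hQ⟩ := dual_det len (fun c => (hlen c).1) (fun c => (hlen c).2) x w hx
  refine gt_le_of_family η hη d hd hds ?_
  intro C ι _ _ len' hlen' hcol' J hJ hli
  refine orbit_prod len (fun c => (hlen c).1) len' hlen' ?_
    (fun τ c s => τ.symm (w τ c (Sum.inr s))) J ?_ Q hQ hli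
  · intro i
    rw [hcol' i, hcol i]
  · intro τ β j
    have h2 := hB2 τ (τ j)
    rw [dgr, Equiv.symm_apply_apply] at h2
    have h3 : (∑ c, if τ j ∈ B τ c then 0 else 1) +
        (univ.filter fun c => τ j ∈ B τ c).card = N := by
      rw [card_filter, ← sum_add_distrib]
      have h4 : ∀ c : Fin N, (if τ j ∈ B τ c then 0 else 1) + (if τ j ∈ B τ c then 1 else 0) =
          1 := fun c => by split_ifs <;> rfl
      rw [sum_congr rfl fun c _ => h4 c]
      simp
    rw [sum_congr rfl fun c _ => card_inr (B τ c) (w τ c) (hwl τ c) (hwr τ c) τ j, hJ β j]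
    have h5 := hadN j
    have h6 := hda j
    omega

/-- **[FD2] `MatDualT`** (the literal of #15130) -/
theorem matDualT : ∀ (a b N : ℕ) (len : Fin N → ℕ) (lam η : Fin a → ℕ), 0 < b →
    TDes b N (fun c => b - len c) → (∀ c, len c ≤ a ∧ len c ≤ b) → Antitone η →
    (∀ i : Fin a, (univ.filter fun c => (i : ℕ) < len c).card + η i = lam i) →
    ∑ i, lam i = a * b →
    gt a b η ≤ ((∑ i, η i) + b - 1).choose (b - 1) * (b.factorial * plethMult b a a lam) :=
  fun a b N len lam η hb hD hlen hη hcol hsum =>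
    dualT a a b N len lam η hb hD hlen hη hcol hsum

end Vale.Agent.P181.FD.H187
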